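import Vale.Agent.P097Mo.Defs

/-!
# P097S2: the inverse branches of `Sf z = sin z - z cos z`
-/

set_option linter.all false

noncomputable section

namespace Vale.Agent.P097S2

open Filter Topology Set Metric Complex
open Vale.Agent.P097Mo (Sf)

theorem S_strict (z : ℂ) : HasStrictDerivAt Sf (z * sin z) z := by
  have := (hasStrictDerivAt_sin z).sub ((hasStrictDerivAt_id z).mul (hasStrictDerivAt_cos z))
  refine HasStrictDerivAt.congr_deriv this ?_
  simp

theorem S_diff : Differentiable ℂ Sf := fun z => (S_strict z).hasDerivAt.differentiableAt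

theorem S_cont : Continuous Sf := S_diff.continuous

theorem S_deriv (z : ℂ) : deriv Sf z = z * sin z := (S_strict z).hasDerivAt.deriv

/-- the critical points -/
theorem S_crit {z : ℂ} (h : z * sin z = 0) : ∃ k : ℤ, z = k * Real.pi := by
  rcases mul_eq_zero.1 h with h | h
  · exact ⟨0, by simp [h]⟩
  · exact sin_eq_zero_iff.1 h

/-- the critical values are real -/
theorem S_cv_im (k : ℤ) : (Sf (k * Real.pi)).im = 0 := by
  have : ((k : ℂ) * Real.pi) = ((k * Real.pi : ℝ) : ℂ) := by push_cast; ring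
  rw [this, Sf, ← ofReal_sin, ← ofReal_cos, ← ofReal_mul, ← ofReal_sub, ofReal_im]

theorem norm_sin_le (z : ℂ) : ‖sin z‖ ≤ (Real.exp z.im + Real.exp (-z.im)) / 2 := by
  have h1 : ‖exp (-z * I)‖ = Real.exp z.im := by rw [norm_exp]; simp
  have h2 : ‖exp (z * I)‖ = Real.exp (-z.im) := by rw [norm_exp]; simp
  rw [sin, norm_div, norm_mul, norm_I, mul_one, ← h1, ← h2, Complex.norm_ofNat]
  gcongr
  exact norm_sub_le _ _

theorem norm_cos_le (z : ℂ) : ‖cos z‖ ≤ (Real.exp z.im + Real.exp (-z.im)) / 2 := by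
  have h1 : ‖exp (-z * I)‖ = Real.exp z.im := by rw [norm_exp]; simp
  have h2 : ‖exp (z * I)‖ = Real.exp (-z.im) := by rw [norm_exp]; simp
  rw [cos, norm_div, ← h1, ← h2, Complex.norm_ofNat, add_comm ‖exp (-z * I)‖]
  gcongr
  exact norm_add_le _ _

theorem norm_cos_ge (z : ℂ) : |Real.exp z.im - Real.exp (-z.im)| / 2 ≤ ‖cos z‖ := by
  have h1 : ‖exp (-z * I)‖ = Real.exp z.im := by rw [norm_exp]; simp
  have h2 : ‖exp (z * I)‖ = Real.exp (-z.im) := by rw [norm_exp]; simp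
  rw [cos, norm_div, ← h1, ← h2, Complex.norm_ofNat]
  gcongr
  have := abs_norm_sub_norm_le (exp (-z * I)) (-exp (z * I))
  rwa [norm_neg, sub_neg_eq_add, add_comm] at this

theorem ch_le (y : ℝ) : (Real.exp y + Real.exp (-y)) / 2 ≤ Real.exp |y| := by
  linarith [Real.exp_le_exp.2 (le_abs_self y), Real.exp_le_exp.2 (neg_le_abs y)]

/-- upper bound -/
theorem S_le (z : ℂ) : ‖Sf z‖ ≤ (1 + ‖z‖) * Real.exp |z.im| := by
  refine (norm_sub_le _ _).trans ?_
  rw [norm_mul]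
  have h1 := (norm_sin_le z).trans (ch_le _)
  have h2 := mul_le_mul_of_nonneg_left ((norm_cos_le z).trans (ch_le _)) (norm_nonneg z)
  linarith

theorem S_le' (z : ℂ) : ‖Sf z‖ ≤ Real.exp (2 * ‖z‖) := by
  refine (S_le z).trans ?_
  rw [two_mul, Real.exp_add]
  exact mul_le_mul (by linarith [Real.add_one_le_exp ‖z‖])
    (Real.exp_le_exp.2 (abs_im_le_norm z)) (Real.exp_pos _).le (Real.exp_pos _).le

/-- the imaginary part is logarithmically bounded by the value -/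
theorem exp_im_le (z : ℂ) : Real.exp |z.im| ≤ 2 * ‖Sf z‖ + 9 := by
  have s0 := norm_nonneg (Sf z)
  rcases le_total |z.im| 2 with h | h
  · have h1 := Real.exp_le_exp.2 h
    have h2 : Real.exp 2 ≤ 9 := by
      have := Real.exp_one_lt_d9
      rw [show (2 : ℝ) = 1 + 1 by norm_num, Real.exp_add]
      nlinarith [Real.exp_pos 1]
    linarith
  · have h1 : ‖z * cos z‖ ≤ ‖Sf z‖ + ‖sin z‖ := by
      have : z * cos z = sin z - Sf z := by rw [Sf]; ring
      rw [this, add_comm]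
      exact norm_sub_le _ _
    have h2 : 2 * ‖cos z‖ ≤ ‖z * cos z‖ := by
      rw [norm_mul]
      exact mul_le_mul_of_nonneg_right (h.trans (abs_im_le_norm z)) (norm_nonneg _)
    have h3 := norm_cos_ge z
    have h4 := norm_sin_le z
    rcases le_total 0 z.im with e | e
    · rw [abs_of_nonneg e]
      have := Real.exp_le_one_iff.2 (neg_nonpos.2 e)
      linarith [le_abs_self (Real.exp z.im - Real.exp (-z.im))]
    · rw [abs_of_nonpos e]
      have := Real.exp_le_one_iff.2 e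
      linarith [neg_le_abs (Real.exp z.im - Real.exp (-z.im))]

theorem im_le (z : ℂ) : |z.im| ≤ 2 * ‖Sf z‖ + 8 := by
  linarith [exp_im_le z, Real.add_one_le_exp |z.im|]

/-- the value is large on the lines through the critical points -/
theorem S_line {z : ℂ} (h : Real.sin z.re = 0) : |z.re| ≤ ‖Sf z‖ := by
  refine le_trans ?_ (abs_re_le_norm _)
  have c1 : |Real.cos z.re| = 1 := by
    have := Real.sin_sq_add_cos_sq z.re
    rw [h] at this
    exact (pow_eq_one_iff_of_nonneg (abs_nonneg _) two_ne_zero).1 (by rw [sq_abs]; linarith)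
  have e : (Sf z).re = -(z.re * Real.cos z.re * Real.cosh z.im) := by
    rw [Sf, sin_eq z, cos_eq z, ← ofReal_sin z.re, ← ofReal_cos z.re, ← ofReal_cosh z.im,
      ← ofReal_sinh z.im, h]
    simp only [sub_re, add_re, mul_re, mul_im, sub_im, ofReal_re, ofReal_im, I_re, I_im]
    ring
  rw [e, abs_neg, abs_mul, abs_mul, c1, mul_one, abs_of_pos (Real.cosh_pos _)]
  exact le_mul_of_one_le_right (abs_nonneg _) (Real.one_le_cosh _)

/-- the cubic behaviour at `0` -/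
theorem S_cube {z : ℂ} (h : ‖z‖ ≤ 1) : ‖Sf z - z ^ 3 / 3‖ ≤ ‖z‖ ^ 5 / 10 := by
  have h1 := sin_bound h
  have h2 := mul_le_mul_of_nonneg_left (cos_bound h) (norm_nonneg z)
  rw [← norm_mul] at h2
  have e : Sf z - z ^ 3 / 3 = (sin z - (z - z ^ 3 / 6)) - z * (cos z - (1 - z ^ 2 / 2)) := by
    rw [Sf]; ring
  rw [e]
  refine (norm_sub_le _ _).trans ?_
  have : 0 ≤ ‖z‖ ^ 5 := by positivity
  have e2 : ‖z‖ * (‖z‖ ^ 4 * (5 / 96)) = ‖z‖ ^ 5 * (5 / 96) := by ring
  linarith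

theorem S_cube_le {z : ℂ} (h : ‖z‖ ≤ 1) : ‖Sf z‖ ≤ ‖z‖ ^ 3 / 2 ∧ ‖z‖ ^ 3 / 5 ≤ ‖Sf z‖ := by
  have h1 := S_cube h
  have h2 : ‖z‖ ^ 5 ≤ ‖z‖ ^ 3 := pow_le_pow_of_le_one (norm_nonneg z) h (by norm_num)
  have h3 : ‖z ^ 3 / 3‖ = ‖z‖ ^ 3 / 3 := by simp
  have h4 := abs_norm_sub_norm_le (Sf z) (z ^ 3 / 3)
  rw [h3, abs_le] at h4
  have : 0 ≤ ‖z‖ ^ 3 := by positivity
  constructor <;> linarith [h4.1, h4.2]

/-- two continuous lifts through regular points agree -/
theorem uniq {X : Type} [TopologicalSpace X] {U : Set X} (hU : IsPreconnected U) {f g : X → ℂ}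
    (hf : ContinuousOn f U) (hg : ContinuousOn g U) (e : ∀ w ∈ U, Sf (f w) = Sf (g w))
    (hr : ∀ w ∈ U, f w * sin (f w) ≠ 0) {a : X} (ha : a ∈ U) (h0 : f a = g a) : EqOn f g U := by
  haveI := isPreconnected_iff_preconnectedSpace.1 hU
  have cf : Continuous fun w : U => f w := continuousOn_iff_continuous_restrict.1 hf
  have cg : Continuous fun w : U => g w := continuousOn_iff_continuous_restrict.1 hg
  have : IsClopen {w : U | f w = g w} := ⟨isClosed_eq cf cg, isOpen_iff_mem_nhds.2 fun w hw => by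
    have l := (S_strict (f w)).eventually_left_inverse (hr w w.2)
    have l1 := (cf.tendsto w).eventually l
    have t2 : Tendsto (fun w : U => g w) (𝓝 w) (𝓝 (f w)) := by
      rw [show f w = g w from hw]; exact cg.tendsto w
    filter_upwards [l1, t2.eventually l] with v e1 e2
    show f v = g v
    rw [← e1, e v v.2, e2]⟩
  intro w hw
  have := this.eq_univ ⟨⟨a, ha⟩, h0⟩
  exact (this ▸ mem_univ (⟨w, hw⟩ : U) : (⟨w, hw⟩ : U) ∈ {w : U | f w = g w})

/-- a continuous section through regular points is holomorphic -/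
theorem sec_deriv {D : ℂ → ℂ} {w : ℂ} (hc : ContinuousAt D w) (hr : D w * sin (D w) ≠ 0)
    (e : ∀ᶠ v in 𝓝 w, Sf (D v) = v) : HasDerivAt D (D w * sin (D w))⁻¹ w :=
  (S_strict (D w)).hasDerivAt.of_local_left_inverse hc hr e

namespace Aux

def cl (a : ℝ) (z : ℂ) : ℂ := ⟨max (-a) (min a z.re), z.im⟩

def pp (a : ℝ) (z : ℂ) : ℂ := Sf (cl a z) * ((1 + ‖z - cl a z‖ : ℝ) : ℂ)

lemma cl_cont (a : ℝ) : Continuous (cl a) := by
  have : cl a = fun z => ((max (-a) (min a z.re) : ℝ) : ℂ) + (z.im : ℂ) * I := by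
    funext z; apply Complex.ext <;> simp [cl]
  rw [this]
  fun_prop

lemma pp_cont (a : ℝ) : Continuous (pp a) :=
  (S_cont.comp (cl_cont a)).mul (continuous_ofReal.comp
    (continuous_const.add (continuous_id.sub (cl_cont a)).norm))

lemma pp_eq {a : ℝ} {z : ℂ} (h : |z.re| < a) : pp a z = Sf z := by
  have h' := abs_lt.1 h
  have : cl a z = z := Complex.ext (by
    show max (-a) (min a z.re) = z.re
    rw [min_eq_right h'.2.le, max_eq_right h'.1.le]) rfl
  simp [pp, this]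

lemma pp_norm (a : ℝ) (z : ℂ) : ‖pp a z‖ = ‖Sf (cl a z)‖ * (1 + ‖z - cl a z‖) := by
  rw [pp, norm_mul, norm_real, Real.norm_of_nonneg (by positivity)]

lemma pp_out {a : ℝ} (a1 : 1 ≤ a) (hs : Real.sin a = 0) {z : ℂ} (h : a ≤ |z.re|) :
    a ≤ ‖pp a z‖ ∧ |z.re| ≤ ‖pp a z‖ + a := by
  have c : |(cl a z).re| = a ∧ Real.sin (cl a z).re = 0 := by
    show |max (-a) (min a z.re)| = a ∧ Real.sin (max (-a) (min a z.re)) = 0
    rcases le_abs.1 h with e | e
    · rw [min_eq_left e, max_eq_right (by linarith), abs_of_nonneg (by linarith)]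
      exact ⟨rfl, hs⟩
    · rw [min_eq_right (by linarith), max_eq_left (by linarith), abs_neg, abs_of_nonneg (by linarith),
        Real.sin_neg, hs, neg_zero]
      exact ⟨rfl, rfl⟩
  have h1 := S_line c.2
  rw [c.1] at h1
  have h2 : |z.re| ≤ ‖z - cl a z‖ + a := by
    have := abs_re_le_norm (z - cl a z)
    rw [sub_re] at this
    linarith [abs_sub_abs_le_abs_sub z.re (cl a z).re, c.1]
  have n0 := norm_nonneg (z - cl a z)
  rw [pp_norm]
  constructor <;> nlinarith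

lemma pp_proper {a : ℝ} (a1 : 1 ≤ a) (hs : Real.sin a = 0) : IsProperMap (pp a) := by
  refine isProperMap_iff_isCompact_preimage.2 ⟨pp_cont a, fun K hK => ?_⟩
  obtain ⟨R, hR⟩ := hK.isBounded.exists_norm_le
  refine Metric.isCompact_of_isClosed_isBounded (hK.isClosed.preimage (pp_cont a))
    (isBounded_iff_forall_norm_le.2 ⟨(R + a) + (2 * R + 8), fun z hz => ?_⟩)
  have h1 := hR _ hz
  have n0 := norm_nonneg (pp a z)
  have h2 : |z.re| ≤ R + a := by
    rcases le_total a |z.re| with e | e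
    · linarith [(pp_out a1 hs e).2]
    · linarith
  have h3 : |z.im| ≤ 2 * R + 8 := by
    have := im_le (cl a z)
    rw [pp_norm] at h1
    have h4 := le_mul_of_one_le_right (norm_nonneg (Sf (cl a z)))
      (show 1 ≤ 1 + ‖z - cl a z‖ by linarith [norm_nonneg (z - cl a z)])
    show |(cl a z).im| ≤ _
    linarith
  linarith [norm_le_abs_re_add_abs_im z]

lemma pp_in {a : ℝ} (a1 : 1 ≤ a) (hs : Real.sin a = 0) {z : ℂ} (h : ‖pp a z‖ < a) : |z.re| < a :=
  not_le.1 fun e => absurd (pp_out a1 hs e).1 (not_le.2 h)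

lemma loc {a : ℝ} (a1 : 1 ≤ a) (hs : Real.sin a = 0) {V : Set ℂ} (hV : IsOpen V)
    (hc : Convex ℝ V) (hcv : ∀ k : ℤ, Sf (k * Real.pi) ∉ V) (hb : ∀ w ∈ V, ‖w‖ < a) {z₀ : ℂ}
    (h0 : Sf z₀ ∈ V) (hz : |z₀.re| < a) :
    ∃ D : ℂ → ℂ, ContinuousOn D V ∧ (∀ w ∈ V, Sf (D w) = w) ∧ D (Sf z₀) = z₀ := by
  classical
  have lh : ∀ e ∈ pp a ⁻¹' V, ∃ φ : OpenPartialHomeomorph ℂ ℂ, e ∈ φ.source ∧ pp a = φ := by
    intro e he
    have h1 := pp_in a1 hs (hb _ he)
    have h2 : pp a =ᶠ[𝓝 e] Sf := by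
      filter_upwards [(isOpen_lt (continuous_re.abs) continuous_const).mem_nhds h1] with z hz
      exact pp_eq hz
    have h3 : e * sin e ≠ 0 := fun h => by
      obtain ⟨k, rfl⟩ := S_crit h
      exact hcv k (by rw [← pp_eq h1]; exact he)
    have h4 : HasStrictDerivAt (pp a) (e * sin e) e := (S_strict e).congr_of_eventuallyEq h2.symm
    exact ⟨_, (h4.hasStrictFDerivAt_equiv h3).mem_toOpenPartialHomeomorph_source, by simp⟩
  have cov : IsCoveringMapOn (pp a) V :=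
    (pp_proper a1 hs).isClosedMap.isCoveringMapOn_of_isLocalHomeomorphOn (fun x hx =>
      ((pp_proper a1 hs).isCompact_preimage isCompact_singleton).finite
        (.of_openPartialHomeomorph (pp a) subset_rfl fun e he =>
          let ⟨φ, h1, h2⟩ := lh e (by rw [mem_preimage, show pp a e = x from he]; exact hx)
          ⟨φ, h1, h2.symm⟩)) lh
  haveI := hc.contractibleSpace ⟨_, h0⟩
  haveI := hV.locallyPathConnectedSpace
  obtain ⟨F, ⟨F0, F1⟩, -⟩ := cov.existsUnique_continuousMap_lifts (A := V)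
    ⟨Subtype.val, continuous_subtype_val⟩ (a₀ := ⟨_, h0⟩) (e₀ := z₀) (pp_eq hz) fun w => w.2
  refine ⟨fun w => if h : w ∈ V then F ⟨w, h⟩ else 0, ?_, fun w hw => ?_, ?_⟩
  · rw [continuousOn_iff_continuous_restrict]
    refine F.continuous.congr fun w => ?_
    show F w = if h : (w : ℂ) ∈ V then F ⟨w, h⟩ else 0
    rw [dif_pos w.2]
  · have e : pp a (F ⟨w, hw⟩) = w := congrFun F1 ⟨w, hw⟩
    show Sf (if h : w ∈ V then F ⟨w, h⟩ else 0) = w
    rw [dif_pos hw, ← pp_eq (pp_in a1 hs (by rw [e]; exact hb w hw)), e]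
  · show (if h : Sf z₀ ∈ V then F ⟨_, h⟩ else 0) = z₀
    rw [dif_pos h0, F0]

end Aux

/-- points over a set without critical values are regular -/
theorem reg {V : Set ℂ} (hcv : ∀ k : ℤ, Sf (k * Real.pi) ∉ V) {z : ℂ} (h : Sf z ∈ V) :
    z * sin z ≠ 0 := fun e => by
  obtain ⟨k, rfl⟩ := S_crit e
  exact hcv k h

/-- **inverse branches** on convex open sets without critical values -/
theorem branch {V : Set ℂ} (hV : IsOpen V) (hc : Convex ℝ V)
    (hcv : ∀ k : ℤ, Sf (k * Real.pi) ∉ V) {z₀ : ℂ} (h0 : Sf z₀ ∈ V) :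
    ∃ D : ℂ → ℂ, DifferentiableOn ℂ D V ∧ (∀ w ∈ V, Sf (D w) = w) ∧ D (Sf z₀) = z₀ := by
  obtain ⟨k₀, hk₀⟩ := exists_nat_gt (max ‖Sf z₀‖ |z₀.re|)
  have lt : ∀ k : ℕ, ((k₀ + k + 1 : ℕ) : ℝ) ≤ (k₀ + k + 1 : ℕ) * Real.pi := fun k =>
    le_mul_of_one_le_right (Nat.cast_nonneg _) (by linarith [Real.pi_gt_three])
  have ge : ∀ k : ℕ, (k₀ : ℝ) + k + 1 ≤ (k₀ + k + 1 : ℕ) * Real.pi := fun k => by
    have := lt k
    push_cast at this ⊢
    exact this
  have k0 : ∀ k : ℕ, (0 : ℝ) ≤ k := Nat.cast_nonneg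
  have m0 : ∀ k : ℕ, Sf z₀ ∈ V ∩ ball 0 (k₀ + k + 1) := fun k => ⟨h0, by
    rw [mem_ball_zero_iff]
    linarith [le_max_left ‖Sf z₀‖ |z₀.re|, k0 k]⟩
  have ex : ∀ k : ℕ, ∃ D : ℂ → ℂ, ContinuousOn D (V ∩ ball 0 (k₀ + k + 1)) ∧
      (∀ w ∈ V ∩ ball 0 (k₀ + k + 1), Sf (D w) = w) ∧ D (Sf z₀) = z₀ := fun k =>
    Aux.loc (a := (k₀ + k + 1 : ℕ) * Real.pi) (by linarith [ge k, k0 k, k0 k₀])
      (Real.sin_nat_mul_pi _) (hV.inter isOpen_ball) (hc.inter (convex_ball _ _))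
      (fun j hj => hcv j hj.1) (fun w hw => (mem_ball_zero_iff.1 hw.2).trans_le (ge k)) (m0 k)
      (by linarith [le_max_right ‖Sf z₀‖ |z₀.re|, ge k, k0 k])
  choose D c1 c2 c3 using ex
  have ag : ∀ k l : ℕ, k ≤ l → EqOn (D k) (D l) (V ∩ ball 0 (k₀ + k + 1)) := fun k l hkl => by
    have s : V ∩ ball 0 (k₀ + k + 1) ⊆ V ∩ ball (0 : ℂ) (k₀ + l + 1) :=
      inter_subset_inter_right _ (ball_subset_ball (by gcongr))
    exact uniq (hc.inter (convex_ball _ _)).isPreconnected (c1 k) ((c1 l).mono s)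
      (fun w hw => by rw [c2 k w hw, c2 l w (s hw)])
      (fun w hw => reg hcv (by rw [c2 k w hw]; exact hw.1)) (m0 k) (by rw [c3, c3])
  have mm : ∀ w ∈ V, w ∈ V ∩ ball 0 (k₀ + (⌈‖w‖⌉₊ : ℕ) + 1) := fun w hw => ⟨hw, by
    rw [mem_ball_zero_iff]
    linarith [Nat.le_ceil ‖w‖, k0 k₀]⟩
  refine ⟨fun w => D ⌈‖w‖⌉₊ w, fun w hw => ?_, fun w hw => c2 _ w (mm w hw), c3 _⟩
  have o := (hV.inter isOpen_ball).mem_nhds (mm w hw)
  have e : (fun v => D ⌈‖v‖⌉₊ v) =ᶠ[𝓝 w] D ⌈‖w‖⌉₊ := by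
    filter_upwards [o] with v hv
    rcases le_total ⌈‖v‖⌉₊ ⌈‖w‖⌉₊ with h | h
    · exact ag _ _ h (mm v hv.1)
    · exact (ag _ _ h hv).symm
  refine (DifferentiableAt.congr_of_eventuallyEq ?_ e).differentiableWithinAt
  exact (sec_deriv ((c1 _).continuousAt o) (reg hcv (by rw [c2 _ w (mm w hw)]; exact hw))
    (by filter_upwards [o] with v hv using c2 _ v hv)).differentiableAt

/-- the branches on the upper half plane -/
theorem branch_up {z₀ : ℂ} (h0 : 0 < (Sf z₀).im) : ∃ D : ℂ → ℂ,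
    DifferentiableOn ℂ D {w | 0 < w.im} ∧ (∀ w : ℂ, 0 < w.im → Sf (D w) = w) ∧ D (Sf z₀) = z₀ :=
  branch (isOpen_lt continuous_const continuous_im) (convex_halfSpace_im_gt 0)
    (fun k hk => (S_cv_im k).not_gt hk) h0

/-- the branches on the lower half plane -/
theorem branch_lo {z₀ : ℂ} (h0 : (Sf z₀).im < 0) : ∃ D : ℂ → ℂ,
    DifferentiableOn ℂ D {w | w.im < 0} ∧ (∀ w : ℂ, w.im < 0 → Sf (D w) = w) ∧ D (Sf z₀) = z₀ :=
  branch (isOpen_lt continuous_im continuous_const) (convex_halfSpace_im_lt 0)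
    (fun k hk => (S_cv_im k).not_lt hk) h0

/-- every preimage of a large value is large -/
theorem log_le (z : ℂ) : Real.log ‖Sf z‖ ≤ 2 * ‖z‖ := by
  rcases eq_or_lt_of_le (norm_nonneg (Sf z)) with h | h
  · rw [← h, Real.log_zero]; positivity
  · exact (Real.log_le_iff_le_exp h).2 (S_le' z)

end Vale.Agent.P097S2
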